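import Vale.Agent.P245.Images
import Mathlib.Analysis.Calculus.Gradient.Basic
import Mathlib.Analysis.Calculus.ContDiff.Defs

/-!
Bizeul's logarithmic Sobolev inequality, with an absolute constant, for every affine image (in any
dimension `n`, from any dimension `k`) of a product of one-dimensional log-concave laws.
-/

namespace Vale.Agent.Results.P245.LinearImagesOfProducts

open MeasureTheory
open Vale.Agent.P245

theorem result : ∃ C : ℝ, 0 < C ∧ ∀ (n k : ℕ) (ν : Fin k → Measure ℝ),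
    (∀ i, IsLogConcaveLaw (ν i)) →
    ∀ (L : (Fin k → ℝ) →ₗ[ℝ] EuclideanSpace ℝ (Fin n)) (b : EuclideanSpace ℝ (Fin n))
      (μ : Measure (EuclideanSpace ℝ (Fin n))),
      μ = Measure.map (fun z => b + L z) (Measure.pi ν) →
    ∀ a : ℝ, 0 < a →
      (∀ θ : EuclideanSpace ℝ (Fin n), ‖θ‖ = 1 →
        ∫⁻ x, ENNReal.ofReal (Real.exp (inner ℝ x θ ^ 2 / a ^ 2)) ∂μ ≤ 2) →
    ∀ f : EuclideanSpace ℝ (Fin n) → ℝ, ContDiff ℝ (⊤ : ℕ∞) f → HasCompactSupport f →
      (∫ x, f x ^ 2 * Real.log (f x ^ 2) ∂μ)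
          - (∫ x, f x ^ 2 ∂μ) * Real.log (∫ x, f x ^ 2 ∂μ)
        ≤ C * a ^ 2 * ∫ x, ‖gradient f x‖ ^ 2 ∂μ := by
  refine ⟨CLS, by have := K0_pos; unfold CLS; positivity, ?_⟩
  intro n k ν hν L b μ hμ a ha hsub f hf hfs
  subst hμ
  have : ∀ i, IsProbabilityMeasure (ν i) := fun i => (hν i).1
  set Lc : (Fin k → ℝ) →L[ℝ] EuclideanSpace ℝ (Fin n) := LinearMap.toContinuousLinearMap L with hLc
  have hT : Measurable (fun z => b + L z) :=
    (continuous_const.add L.continuous_of_finiteDimensional).measurable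
  have hf1 : ContDiff ℝ 1 f := hf.of_le (by exact_mod_cast le_top)
  have hsub' : ∀ θ : EuclideanSpace ℝ (Fin n), ‖θ‖ = 1 →
      ∫⁻ z, ENNReal.ofReal (Real.exp (inner ℝ θ (b + Lc z) ^ 2 / a ^ 2)) ∂(Measure.pi ν) ≤ 2 := by
    intro θ hθ
    refine le_trans (le_of_eq ?_) (hsub θ hθ)
    rw [lintegral_map (by fun_prop) hT]
    simp [hLc, real_inner_comm]
  have key := lsi_images ν (fun i => (exists_chart (hν i)).some) Lc b ha hsub' hf1 hfs
  have hgrad : ∀ x, ‖gradient f x‖ = ‖fderiv ℝ f x‖ := fun x => by simp [gradient]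
  have hfc : Continuous f := hf1.continuous
  have hDc : Continuous (fderiv ℝ f) := hf1.continuous_fderiv one_ne_zero
  simp only [hgrad]
  have hfl : Continuous (fun x => f x ^ 2 * Real.log (f x ^ 2)) :=
    Real.continuous_mul_log.comp (hfc.pow 2)
  rw [integral_map hT.aemeasurable hfl.aestronglyMeasurable,
    integral_map hT.aemeasurable (hfc.fun_pow 2).aestronglyMeasurable,
    integral_map hT.aemeasurable (hDc.norm.fun_pow 2).aestronglyMeasurable]
  simpa [ent, hLc] using key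

end Vale.Agent.Results.P245.LinearImagesOfProducts
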