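import Vale.Agent.P245.Polylog.Final
import Vale.Agent.P245.Polylog.Transport
import Vale.Agent.P245.Polylog.Window
import Vale.Agent.P245.Polylog.Pair
import Vale.Agent.P245.Polylog.PlanExists
import Vale.Agent.P245.Polylog.PlanCalc
import Vale.Agent.P245.Polylog.Gauss
import Vale.Agent.P245.Polylog.Entropy
import Vale.Agent.P245.Polylog.Grad
import Vale.Agent.P245.Polylog.Step
import Vale.Agent.P245.Polylog.Fisher
import Vale.Agent.P245.Polylog.Decouple
import Vale.Agent.P245.Local.Lich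
import Vale.Agent.P245.Local.LsiStrong

/-!
For every centred log-concave probability measure with a density on `ℝⁿ` that is linearly
`a`-subgaussian, the log-Sobolev constant is at most `C (1 + log n)⁴ a²`, with `C` absolute.
-/

namespace Vale.Agent.Results.P245.PolylogLogSobolev

open MeasureTheory Vale.Agent.P245.Polylog

theorem result : ∃ C : ℝ, 0 < C ∧ ∀ n : ℕ, 1 ≤ n →
    ∀ (ρ : EuclideanSpace ℝ (Fin n) → ℝ) (μ : Measure (EuclideanSpace ℝ (Fin n))),
      Measurable ρ → (∀ x, 0 ≤ ρ x) → Convex ℝ {x | 0 < ρ x} →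
      ConcaveOn ℝ {x | 0 < ρ x} (fun x => Real.log (ρ x)) →
      μ = volume.withDensity (fun x => ENNReal.ofReal (ρ x)) → IsProbabilityMeasure μ →
      (∀ v : EuclideanSpace ℝ (Fin n), ∫ x, inner ℝ v x ∂μ = 0) →
      ∀ a : ℝ, 0 < a →
        (∀ θ : EuclideanSpace ℝ (Fin n), ‖θ‖ = 1 →
          ∫⁻ x, ENNReal.ofReal (Real.exp (inner ℝ x θ ^ 2 / a ^ 2)) ∂μ ≤ 2) →
        ∀ f : EuclideanSpace ℝ (Fin n) → ℝ, ContDiff ℝ (⊤ : ℕ∞) f → HasCompactSupport f →
          (∫ x, f x ^ 2 * Real.log (f x ^ 2) ∂μ)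
              - (∫ x, f x ^ 2 ∂μ) * Real.log (∫ x, f x ^ 2 ∂μ)
            ≤ C * (1 + Real.log (n : ℝ)) ^ 4 * a ^ 2 * ∫ x, ‖gradient f x‖ ^ 2 ∂μ :=
  lsi_log
    (fun _ B {_} ht hs {_} hf hg hg' => B.poincare_strong ht hs hf hg hg')
    (fun _ B {_} ht hs {_} hh {_ _} hη hlo hhi hD => B.lsi_strong ht hs hh hη hlo hhi hD)
    window
    (dprop_log
      (transport (entropy_ineq gauss_lsi pot_ibp plan_calc) plan_calc grad pair (step grad pair)
        (decouple (info_decay window) grad))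
      plan_exists)

end Vale.Agent.Results.P245.PolylogLogSobolev
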